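import Vale.Agent.P139Z.XEv.Four

/-!
Block XEV, part 2: superposition of plane waves with Gaussian weights.
-/

open Set Filter Topology MeasureTheory Complex
open scoped NNReal ENNReal ComplexConjugate ContDiff Real

namespace Vale.Agent.P139Z.XEv

variable {d : ℕ}

/-- a frequency vector read in physical space -/
def tp (z : Fq d) : Eu d := WithLp.toLp 2 z

@[fun_prop]
theorem continuous_tp : Continuous (tp : Fq d → Eu d) := PiLp.continuous_toLp 2 _

theorem dot_tp (ξ z : Fq d) : dot ξ (tp z) = dot z (tp ξ) :=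
  Finset.sum_congr rfl fun _ _ => mul_comm _ _

theorem abs_dot_tp_le (ξ z : Fq d) : |dot ξ (tp z)| ≤ d * (‖z‖ * ‖ξ‖) := by
  refine (Finset.abs_sum_le_sum_abs _ _).trans ?_
  calc _ ≤ ∑ _i : Fin d, ‖z‖ * ‖ξ‖ := by
        refine Finset.sum_le_sum fun i _ => ?_
        rw [abs_mul, mul_comm]
        exact mul_le_mul (norm_le_pi_norm z i) (norm_le_pi_norm ξ i) (abs_nonneg _)
          (norm_nonneg _)
    _ = _ := by simp

/-- the Gaussian -/
noncomputable def gs (b : ℂ) (z : Fq d) : ℂ := cexp (-b * sq z)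

@[fun_prop]
theorem continuous_gs (b : ℂ) : Continuous (gs b : Fq d → ℂ) := by
  unfold gs
  fun_prop

theorem norm_gs (b : ℂ) (z : Fq d) : ‖gs b z‖ = Real.exp (-b.re * sq z) := by
  rw [gs, Complex.norm_exp]
  simp

theorem norm_gs_le {b : ℂ} (hb : 0 ≤ b.re) (z : Fq d) : ‖gs b z‖ ≤ 1 := by
  rw [norm_gs, Real.exp_le_one_iff]
  nlinarith [sq_nonneg' z]

theorem integrable_gs {b : ℂ} (hb : 0 < b.re) : Integrable (gs b : Fq d → ℂ) := by
  refine (GaussianFourier.integrable_cexp_neg_mul_sum_add (ι := Fin d) hb 0).congr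
    (Eventually.of_forall fun z => ?_)
  simp [gs, sq]

theorem integrable_norm_gs {b : ℂ} (hb : 0 < b.re) :
    Integrable fun z : Fq d => ‖z‖ * ‖gs b z‖ := by
  have h := (integrable_gs (d := d) (b := (b.re / 2 : ℝ)) (by simpa using hb)).norm.const_mul
    (1 + 2 / b.re)
  refine h.mono' (by fun_prop) (Eventually.of_forall fun z => ?_)
  rw [Real.norm_of_nonneg (by positivity), norm_gs, norm_gs, ofReal_re]
  have h1 := norm_sq_le z
  have h2 := sq_nonneg' z
  have h3 : b.re / 2 * sq z + 1 ≤ Real.exp (b.re / 2 * sq z) := Real.add_one_le_exp _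
  have h4 : 0 ≤ b.re / 2 * sq z := by positivity
  have h5 : sq z ≤ 2 / b.re * Real.exp (b.re / 2 * sq z) := by
    calc sq z = 2 / b.re * (b.re / 2 * sq z) := by field_simp
      _ ≤ _ := by gcongr; linarith
  have h6 : ‖z‖ ≤ (1 + 2 / b.re) * Real.exp (b.re / 2 * sq z) := by
    nlinarith [sq_nonneg (‖z‖ - 1)]
  calc _ ≤ (1 + 2 / b.re) * Real.exp (b.re / 2 * sq z) * Real.exp (-b.re * sq z) := by gcongr
    _ = _ := by
      rw [mul_assoc, ← Real.exp_add]
      congr 2
      ring

theorem re_inv_pos {a : ℂ} (ha : 0 < a.re) : 0 < (1 / (4 * a)).re := by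
  have h0 : a ≠ 0 := fun h => by simp [h] at ha
  rw [one_div, Complex.inv_re]
  refine div_pos (by simpa using ha) (Complex.normSq_pos.2 (by simpa using h0))

/-- the normalizing constant -/
noncomputable def gc (d : ℕ) (a : ℂ) : ℂ := (π / (1 / (4 * a))) ^ ((d : ℂ) / 2)

theorem gc_ne {a : ℂ} (ha : 0 < a.re) : gc d a ≠ 0 := by
  have h0 : a ≠ 0 := fun h => by simp [h] at ha
  have : (π : ℂ) ≠ 0 := by exact_mod_cast Real.pi_ne_zero
  rw [gc, Ne, Complex.cpow_eq_zero_iff]
  simp [h0]

theorem evf_gs {a : ℂ} (ha : 0 < a.re) (ξ : Fq d) :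
    evf (gs (1 / (4 * a))) (tp ξ) = gc d a * gs a ξ := by
  have h0 : a ≠ 0 := fun h => by simp [h] at ha
  have h := GaussianFourier.integral_cexp_neg_mul_sum_add (ι := Fin d) (re_inv_pos ha)
    fun i => I * ξ i
  rw [Fintype.card_fin] at h
  have h1 : (∑ i, (I * ξ i) ^ 2) / (4 * (1 / (4 * a))) = -a * sq ξ := by
    simp only [mul_pow, I_sq, sq, ← Finset.mul_sum]
    push_cast
    field_simp
  rw [h1] at h
  rw [gc, gs, ← h, evf]
  refine integral_congr_ae (Eventually.of_forall fun z => ?_)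
  simp only [gs, ← Complex.exp_add, dot, sq, tp]
  congr 1
  push_cast
  rw [add_comm]
  congr 1
  rw [Finset.mul_sum]
  exact Finset.sum_congr rfl fun i _ => by ring

theorem evf_gs1 {a : ℂ} (ha : 0 < a.re) (ξ : Fq d) :
    evf (fun z => I * dot z (tp ξ) * gs (1 / (4 * a)) z) (tp ξ) =
      gc d a * (-2 * a * sq ξ * gs a ξ) := by
  have hb := re_inv_pos ha
  rw [← fderiv_evf (integrable_gs hb) (integrable_norm_gs hb)]
  have h1 : HasDerivAt (fun t : ℝ => t • tp ξ) (tp ξ) 1 := by
    simpa using (hasDerivAt_id (1 : ℝ)).smul_const (tp ξ)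
  have h2 := (differentiable_evf (integrable_gs hb) (integrable_norm_gs hb)
    (tp ξ)).hasFDerivAt.comp_hasDerivAt_of_eq 1 h1 (by simp)
  have h3 : (evf (gs (1 / (4 * a))) ∘ fun t : ℝ => t • tp ξ) =
      fun t : ℝ => gc d a * cexp (-a * sq ξ * (t : ℂ) ^ 2) := by
    funext t
    have : t • tp ξ = tp (t • ξ) := rfl
    rw [Function.comp_apply, this, evf_gs ha, gs]
    congr 2
    simp only [sq, Pi.smul_apply, smul_eq_mul, mul_pow, ← Finset.mul_sum]
    push_cast
    ring
  rw [h3] at h2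
  have h4 : HasDerivAt (fun t : ℝ => (t : ℂ)) 1 1 := Complex.ofRealCLM.hasDerivAt
  have h5 := (((h4.fun_pow 2).const_mul (-a * sq ξ)).cexp).const_mul (gc d a)
  rw [h2.unique h5, gs]
  simp only [ofReal_one, one_pow, mul_one, Nat.cast_ofNat]
  ring

theorem gauss_A {a : ℂ} (ha : 0 < a.re) {G : Fq d → ℂ} (hG : Integrable G) :
    ∫ z, gs (1 / (4 * a)) z * evf G (tp z) = gc d a * ∫ ξ, gs a ξ * G ξ := by
  have hb := re_inv_pos ha
  simp only [evf, ← integral_const_mul]
  rw [integral_integral_swap]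
  · refine integral_congr_ae (Eventually.of_forall fun ξ => ?_)
    simp only
    rw [← mul_assoc, ← evf_gs ha, evf, ← integral_mul_const]
    refine integral_congr_ae (Eventually.of_forall fun z => ?_)
    simp only
    rw [dot_tp]
    ring
  · refine (((integrable_gs hb).mul_prod hG).bdd_mul (c := 1)
      (f := fun p : Fq d × Fq d => cexp (I * dot p.2 (tp p.1))) (by fun_prop)
      (Eventually.of_forall fun p => (norm_char _).le)).congr (Eventually.of_forall fun p => ?_)
    simp only [Function.uncurry]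
    ring

theorem gauss_B {a : ℂ} (ha : 0 < a.re) {G : Fq d → ℂ} (hG : AEStronglyMeasurable G)
    (hG1 : Integrable fun ξ => ‖ξ‖ * ‖G ξ‖) :
    ∫ z, gs (1 / (4 * a)) z * evf (fun ξ => I * dot ξ (tp z) * G ξ) (tp z) =
      gc d a * ∫ ξ, -2 * a * sq ξ * gs a ξ * G ξ := by
  have hb := re_inv_pos ha
  simp only [evf, ← integral_const_mul]
  rw [integral_integral_swap]
  · refine integral_congr_ae (Eventually.of_forall fun ξ => ?_)
    simp only
    rw [← mul_assoc, ← evf_gs1 ha, evf, ← integral_mul_const]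
    refine integral_congr_ae (Eventually.of_forall fun z => ?_)
    simp only
    rw [dot_tp]
    ring
  · refine (((integrable_norm_gs hb).mul_prod hG1).const_mul (d : ℝ)).mono' ?_
      (Eventually.of_forall fun p => ?_)
    · have h1 : AEStronglyMeasurable (fun p : Fq d × Fq d => G p.2) (volume.prod volume) :=
        hG.comp_snd
      refine AEStronglyMeasurable.mul (by fun_prop) (AEStronglyMeasurable.mul (by fun_prop)
        (AEStronglyMeasurable.mul (by fun_prop) h1))
    · simp only [Function.uncurry, norm_mul, norm_char, norm_I, one_mul, norm_real,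
        Real.norm_eq_abs]
      calc _ ≤ ‖gs (1 / (4 * a)) p.1‖ * (d * (‖p.1‖ * ‖p.2‖) * ‖G p.2‖) := by
            gcongr
            exact abs_dot_tp_le _ _
        _ = _ := by ring

theorem tendsto_gs {G : Fq d → ℂ} (hG : Integrable G) (τ : ℝ) :
    Tendsto (fun ε : ℝ => ∫ ξ, gs (ε + I * τ) ξ * G ξ) (𝓝[>] 0)
      (𝓝 (∫ ξ, gs (I * τ) ξ * G ξ)) := by
  refine tendsto_integral_filter_of_dominated_convergence (fun ξ => ‖G ξ‖)
    (Eventually.of_forall fun ε => AEStronglyMeasurable.mul (by fun_prop) hG.1) ?_ hG.norm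
    (Eventually.of_forall fun ξ => ?_)
  · filter_upwards [self_mem_nhdsWithin] with ε hε
    refine Eventually.of_forall fun ξ => ?_
    rw [norm_mul]
    exact mul_le_of_le_one_left (norm_nonneg _) (norm_gs_le (by simpa using le_of_lt hε) ξ)
  · have h : Continuous fun ε : ℝ => gs (ε + I * τ) ξ * G ξ := by
      unfold gs
      fun_prop
    have h2 := (h.tendsto 0).mono_left (nhdsWithin_le_nhds (s := Ioi 0))
    simpa using h2

/-- the identity for plane waves passes to chirped plane waves -/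
theorem chirp {K G : Fq d → ℂ} (hK : Integrable K) (hG : AEStronglyMeasurable G)
    (hG1 : Integrable fun ξ => ‖ξ‖ * ‖G ξ‖) (hG2 : Integrable fun ξ => (sq ξ : ℂ) * G ξ)
    (h : ∀ w, evf K w = -(1 / 2) * evf (fun ξ => I * dot ξ w * G ξ) w) (τ : ℝ) :
    ∫ ξ, gs (I * τ) ξ * K ξ = I * τ * ∫ ξ, gs (I * τ) ξ * (sq ξ * G ξ) := by
  have h1 : ∀ a : ℂ, 0 < a.re → ∫ ξ, gs a ξ * K ξ = a * ∫ ξ, gs a ξ * (sq ξ * G ξ) := by
    intro a ha
    refine mul_left_cancel₀ (gc_ne (d := d) ha) ?_
    rw [← gauss_A ha hK]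
    have h2 := gauss_B ha hG hG1
    calc _ = -(1 / 2) * ∫ z, gs (1 / (4 * a)) z *
            evf (fun ξ => I * dot ξ (tp z) * G ξ) (tp z) := by
          rw [← integral_const_mul]
          refine integral_congr_ae (Eventually.of_forall fun z => ?_)
          simp only
          rw [h]
          ring
      _ = _ := by
          have h4 : -(1 / 2) * ∫ ξ, -2 * a * sq ξ * gs a ξ * G ξ =
              a * ∫ ξ, gs a ξ * (sq ξ * G ξ) := by
            rw [← integral_const_mul, ← integral_const_mul]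
            refine integral_congr_ae (Eventually.of_forall fun ξ => ?_)
            simp only
            ring
          rw [h2, mul_left_comm, h4]
  have h3 : Tendsto (fun ε : ℝ => (ε : ℂ) + I * τ) (𝓝[>] 0) (𝓝 (I * τ)) := by
    have h : Continuous fun ε : ℝ => (ε : ℂ) + I * τ := by fun_prop
    simpa using (h.tendsto 0).mono_left (nhdsWithin_le_nhds (s := Ioi 0))
  refine tendsto_nhds_unique_of_eventuallyEq (tendsto_gs hK τ) (h3.mul (tendsto_gs hG2 τ)) ?_
  filter_upwards [self_mem_nhdsWithin] with ε hε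
  exact h1 _ (by simpa using hε)

end Vale.Agent.P139Z.XEv
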