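import Vale.Agent.P139Z.Defs

/-!
Block XEV, part 1: the physical-space function as a Fourier integral.
-/

open Set Filter Topology MeasureTheory Complex
open scoped NNReal ENNReal ComplexConjugate ContDiff FourierTransform Real

namespace Vale.Agent.P139Z.XEv

variable {d : ℕ}

theorem abs_dot_le (ξ : Fq d) (y : Eu d) : |dot ξ y| ≤ d * ‖ξ‖ * ‖y‖ := by
  refine (Finset.abs_sum_le_sum_abs _ _).trans ?_
  calc _ ≤ ∑ _i : Fin d, ‖ξ‖ * ‖y‖ := by
        refine Finset.sum_le_sum fun i _ => ?_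
        rw [abs_mul]
        exact mul_le_mul (norm_le_pi_norm ξ i) (PiLp.norm_apply_le y i) (abs_nonneg _)
          (norm_nonneg _)
    _ = _ := by simp [mul_assoc]

theorem sq_nonneg' (ξ : Fq d) : 0 ≤ sq ξ := Finset.sum_nonneg fun _ _ => sq_nonneg _

theorem sq_le (ξ : Fq d) : sq ξ ≤ d * ‖ξ‖ ^ 2 := by
  calc _ ≤ ∑ _i : Fin d, ‖ξ‖ ^ 2 := by
        refine Finset.sum_le_sum fun i _ => ?_
        rw [← sq_abs]
        exact pow_le_pow_left₀ (abs_nonneg _) (norm_le_pi_norm ξ i) 2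
    _ = _ := by simp

theorem norm_sq_le (ξ : Fq d) : ‖ξ‖ ^ 2 ≤ sq ξ := by
  have h : ‖ξ‖ ≤ √(sq ξ) := by
    refine (pi_norm_le_iff_of_nonneg (Real.sqrt_nonneg _)).2 fun i => ?_
    refine Real.abs_le_sqrt ?_
    exact Finset.single_le_sum (f := fun j => ξ j ^ 2) (fun j _ => sq_nonneg _) (Finset.mem_univ i)
  calc _ ≤ √(sq ξ) ^ 2 := by gcongr
    _ = _ := Real.sq_sqrt (sq_nonneg' ξ)

@[fun_prop]
theorem continuous_sq : Continuous (sq : Fq d → ℝ) := by
  unfold sq
  fun_prop

theorem continuous_dot : Continuous fun p : Fq d × Eu d => dot p.1 p.2 := by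
  unfold dot
  fun_prop

@[fun_prop]
theorem continuous_dot' {X : Type*} [TopologicalSpace X] {f : X → Fq d} {g : X → Eu d}
    (hf : Continuous f) (hg : Continuous g) : Continuous fun x => dot (f x) (g x) :=
  continuous_dot.comp (hf.prodMk hg)

theorem dot_smul (ξ : Fq d) (c : ℝ) (y : Eu d) : dot ξ (c • y) = c * dot ξ y := by
  simp only [dot, PiLp.smul_apply, smul_eq_mul, Finset.mul_sum]
  exact Finset.sum_congr rfl fun i _ => by ring

theorem dot_add (ξ : Fq d) (y z : Eu d) : dot ξ (y + z) = dot ξ y + dot ξ z := by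
  simp only [dot, PiLp.add_apply, mul_add, Finset.sum_add_distrib]

theorem dot_single (ξ : Fq d) (i : Fin d) : dot ξ (EuclideanSpace.single i 1) = ξ i := by
  simp [dot]

/-- the pairing, normalized for the Fourier integral -/
noncomputable def Lb (d : ℕ) : Fq d →L[ℝ] Eu d →L[ℝ] ℝ :=
  ∑ i, (ContinuousLinearMap.proj i : Fq d →L[ℝ] ℝ).smulRight
    ((-(2 * π)⁻¹ : ℝ) • (EuclideanSpace.proj i : Eu d →L[ℝ] ℝ))

theorem Lb_apply (ξ : Fq d) (y : Eu d) : Lb d ξ y = -(2 * π)⁻¹ * dot ξ y := by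
  simp only [Lb, sum_apply, ContinuousLinearMap.smulRight_apply,
    ContinuousLinearMap.proj_apply, smul_apply, smul_eq_mul, dot,
    Finset.mul_sum]
  refine Finset.sum_congr rfl fun i _ => ?_
  simp only [EuclideanSpace.coe_proj]
  ring

theorem norm_Lb_le : 2 * π * ‖Lb d‖ ≤ d := by
  have hπ := Real.pi_pos
  rw [← le_div_iff₀' (by positivity)]
  refine ContinuousLinearMap.opNorm_le_bound₂ _ (by positivity) fun ξ y => ?_
  rw [Lb_apply, Real.norm_eq_abs, abs_mul, abs_neg, abs_of_pos (by positivity)]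
  calc _ ≤ (2 * π)⁻¹ * (d * ‖ξ‖ * ‖y‖) := by gcongr; exact abs_dot_le ξ y
    _ = _ := by ring

theorem char_Lb (ξ : Fq d) (y : Eu d) : ((𝐞 (-Lb d ξ y) : Circle) : ℂ) = cexp (I * dot ξ y) := by
  rw [Real.fourierChar_apply, Lb_apply]
  congr 1
  have : (π : ℂ) ≠ 0 := by exact_mod_cast Real.pi_ne_zero
  push_cast
  field_simp

theorem evf_eq (F : Fq d → ℂ) :
    evf F = VectorFourier.fourierIntegral 𝐞 volume (Lb d).toLinearMap₁₂ F := by
  funext y
  rw [evf, VectorFourier.fourierIntegral]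
  refine integral_congr_ae (Eventually.of_forall fun ξ => ?_)
  simp only [ContinuousLinearMap.toLinearMap₁₂_apply_apply_apply, Circle.smul_def, smul_eq_mul,
    char_Lb]

theorem norm_char (x : ℝ) : ‖cexp (I * x)‖ = 1 := Complex.norm_exp_I_mul_ofReal x

theorem integrable_char {F : Fq d → ℂ} (hF : Integrable F) (y : Eu d) :
    Integrable fun ξ => cexp (I * dot ξ y) * F ξ :=
  hF.bdd_mul (c := 1) (by fun_prop) (Eventually.of_forall fun ξ => (norm_char _).le)

theorem contDiff_evf {F : Fq d → ℂ} {k : ℕ}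
    (hF : ∀ n ≤ k, Integrable fun ξ => ‖ξ‖ ^ n * ‖F ξ‖) : ContDiff ℝ k (evf F) := by
  rw [evf_eq]
  exact VectorFourier.contDiff_fourierIntegral (N := k) (Lb d) fun n hn => hF n (by exact_mod_cast hn)

theorem norm_iteratedFDeriv_evf_le {F : Fq d → ℂ} {j : ℕ} (hm : AEStronglyMeasurable F)
    (hF : ∀ n ≤ j, Integrable fun ξ => ‖ξ‖ ^ n * ‖F ξ‖) (y : Eu d) :
    ‖iteratedFDeriv ℝ j (evf F) y‖ ≤ (d : ℝ) ^ j * ∫ ξ, ‖ξ‖ ^ j * ‖F ξ‖ := by
  rw [evf_eq, VectorFourier.iteratedFDeriv_fourierIntegral (N := j) (Lb d)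
    (fun n hn => hF n (by exact_mod_cast hn)) hm le_rfl]
  refine (VectorFourier.norm_fourierIntegral_le_integral_norm _ _ _ _ _).trans ?_
  rw [← integral_const_mul]
  refine integral_mono_of_nonneg (Eventually.of_forall fun _ => norm_nonneg _)
    ((hF j le_rfl).const_mul _) (Eventually.of_forall fun ξ => ?_)
  refine (VectorFourier.norm_fourierPowSMulRight_le _ _ _ _).trans ?_
  have := norm_Lb_le (d := d)
  rw [mul_assoc]
  exact mul_le_mul_of_nonneg_right (pow_le_pow_left₀ (by positivity) this j) (by positivity)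

theorem differentiable_evf {F : Fq d → ℂ} (h0 : Integrable F)
    (h1 : Integrable fun ξ => ‖ξ‖ * ‖F ξ‖) : Differentiable ℝ (evf F) := by
  rw [evf_eq]
  exact VectorFourier.differentiable_fourierIntegral _ h0 h1

theorem fderiv_evf {F : Fq d → ℂ} (h0 : Integrable F) (h1 : Integrable fun ξ => ‖ξ‖ * ‖F ξ‖)
    (y v : Eu d) : fderiv ℝ (evf F) y v = evf (fun ξ => I * dot ξ v * F ξ) y := by
  have h2 : Integrable (VectorFourier.fourierSMulRight (Lb d) F) := by
    refine (h1.const_mul (2 * π * ‖Lb d‖)).mono' h0.1.fourierSMulRight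
      (Eventually.of_forall fun ξ => ?_)
    exact (VectorFourier.norm_fourierSMulRight_le _ _ _).trans (le_of_eq (by ring))
  rw [evf_eq, evf_eq, VectorFourier.fderiv_fourierIntegral _ h0 h1,
    Real.fourierIntegral_continuousLinearMap_apply' h2]
  congr 1
  funext ξ
  rw [VectorFourier.fourierSMulRight_apply, Lb_apply]
  have : (π : ℂ) ≠ 0 := by exact_mod_cast Real.pi_ne_zero
  simp only [smul_eq_mul, real_smul]
  push_cast
  field_simp

/-- uniqueness theorem for the Fourier integral -/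
theorem ae_eq_zero_of_evf {K : Fq d → ℂ} (hK : Integrable K) (h : ∀ y, evf K y = 0) :
    K =ᵐ[volume] fun _ => 0 := by
  have hmp : MeasurePreserving (WithLp.ofLp : Eu d → Fq d) := PiLp.volume_preserving_ofLp (Fin d)
  have hmp' : MeasurePreserving (WithLp.toLp 2 : Fq d → Eu d) := PiLp.volume_preserving_toLp (Fin d)
  have hK' : Integrable (fun v : Eu d => K v.ofLp) := hmp.integrable_comp_of_integrable hK
  have hF : ∀ w : Eu d, 𝓕 (fun v : Eu d => K v.ofLp) w = 0 := by
    intro w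
    rw [Real.fourier_eq', ← h ((-2 * π) • w), evf,
      ← hmp.integral_comp (MeasurableEquiv.toLp 2 (Fq d)).symm.measurableEmbedding]
    refine integral_congr_ae (Eventually.of_forall fun v => ?_)
    simp only [smul_eq_mul, dot_smul]
    congr 2
    rw [mul_comm]
    simp [dot, PiLp.inner_apply, mul_comm]
  have h0 : ∀ᵐ v : Eu d, K v.ofLp = 0 := by
    refine ae_eq_zero_of_integral_contDiff_smul_eq_zero hK'.locallyIntegrable fun g g1 g2 => ?_
    have hg₁ : HasCompactSupport (Complex.ofRealCLM ∘ g) := g2.comp_left rfl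
    have hg₂ : ContDiff ℝ ∞ (Complex.ofRealCLM ∘ g) := by fun_prop
    set φ := hg₁.toSchwartzMap hg₂ with hφ
    have h1 := VectorFourier.integral_fourierIntegral_smul_eq_flip (L := innerₗ (Eu d))
      (μ := volume) Real.continuous_fourierChar continuous_inner (𝓕⁻ φ).integrable hK'
    rw [flip_innerₗ] at h1
    have h2 : VectorFourier.fourierIntegral 𝐞 volume (innerₗ (Eu d)) (𝓕⁻ φ : SchwartzMap _ _) =
        φ := by
      have : 𝓕 (𝓕⁻ φ : SchwartzMap (Eu d) ℂ) = φ := FourierTransform.fourier_fourierInv_eq φ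
      conv_rhs => rw [← this]
      rfl
    have h3 : ∀ x, VectorFourier.fourierIntegral 𝐞 volume (innerₗ (Eu d))
        (fun v : Eu d => K v.ofLp) x = 0 := hF
    rw [h2] at h1
    simp only [h3, smul_zero, integral_zero] at h1
    rw [← h1]
    rfl
  exact hmp'.quasiMeasurePreserving.ae h0

end Vale.Agent.P139Z.XEv
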